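import Vale.Agent.P098.Cert.Data.MidPacked
import Vale.Agent.P098.Check.Fast

/-!
P098, certificate check (Mid), part 1: 9 boxes.
-/

namespace Vale.Agent.P098.Cert.Data

open Check

set_option maxRecDepth 20000 in
theorem midForm_part1 :
    checkTree 16 (2 ^ 152) 15 leafC5 [] [6, 3, 8] midFormPn
      midFormQn 23076282780107827200 midFormT1 [(8, 16), (0, 16), (0, 8)] = true :=
  checkTree_of_treeR5 (by decide +kernel)

end Vale.Agent.P098.Cert.Data
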