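import Vale.Agent.P098.Cert.Data.Mid0
import Vale.Agent.P098.Cert.Data.Mid1
import Vale.Agent.P098.Cert.Data.Mid2
import Vale.Agent.P098.Check.Entries

/-!
P098, certificate (Mid): the matrix polynomial is nonnegative on the cone at every point
of the unit cube.
-/

namespace Vale.Agent.P098.Cert.Data

open Check

set_option maxRecDepth 20000 in
lemma midForm_check : checkTree 16 (2 ^ 152) 15 leafC5 [] [6, 3, 8]
    (packN (2 ^ 152) midFormP) (packN (2 ^ 152) midFormQ) 23076282780107827200 midFormTree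
    [(0, 16), (0, 16), (0, 16)] = true := by
  rw [midFormP_pack, midFormQ_pack]
  exact (checkTree_node (checkTree_node midForm_part0 midForm_part1) midForm_part2)

set_option maxRecDepth 20000 in
lemma midForm_digits : (Nat.beq midFormP.length (size 15 [6, 3, 8]) &&
    Nat.beq midFormQ.length (size 15 [6, 3, 8]) && midFormP.all (fun a => Nat.ble a 23076282780107827200) &&
    midFormQ.all (fun a => Nat.ble a 23076282780107827200) &&
    shaped 6 3 8 midFormEntries && Nat.beq midFormEntries.length 15) = true := by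
  decide +kernel

/-- Nonnegativity of the form on the cone, at every point of the unit cube. -/
theorem midForm_nonneg {x y z : ℝ} (hx : x ∈ Set.Icc (0 : ℝ) 1) (hy : y ∈ Set.Icc (0 : ℝ) 1)
    (hz : z ∈ Set.Icc (0 : ℝ) 1) (w0 w1 w2 o R : ℝ) (ho : 0 ≤ o) (hR : 0 ≤ R) :
    0 ≤ dotW (symMon [w0, w1, w2, o, R]) (midFormEntries.map fun E => evalEntry E x y z) := by
  have h := midForm_digits
  simp only [Bool.and_eq_true, List.all_eq_true, Nat.beq_eq] at h
  obtain ⟨⟨⟨⟨⟨hp, hq⟩, hpB⟩, hqB⟩, hs⟩, hN⟩ := h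
  have key := checkTree_sound (xs := [x, y, z]) (mon := symMon [w0, w1, w2, o, R]) (by norm_num)
    (leafC5_sound w0 w1 w2 o R ho hR) (by simp [monOK])
    (p := _) (q := _) ⟨hp, fun a ha => Nat.le_of_ble_eq_true (hpB a ha)⟩
    ⟨hq, fun a ha => Nat.le_of_ble_eq_true (hqB a ha)⟩
    midFormTree midForm_check (by
      simp only [InBox, Nat.cast_zero]
      refine ⟨⟨?_, ?_⟩, ⟨?_, ?_⟩, ⟨?_, ?_⟩, trivial⟩ <;>
        (push_cast; linarith [hx.1, hx.2, hy.1, hy.2, hz.1, hz.2]))
  have e := evalP_entries hs hN (symMon [w0, w1, w2, o, R]) x y z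
  rw [midFormP, midFormQ] at key
  linarith

end Vale.Agent.P098.Cert.Data
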