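import Vale.Agent.P098.Cert.Data.NodePosPacked
import Vale.Agent.P098.Check.Fast

/-!
P098, certificate check (NodePos), part 2: 24 boxes.
-/

namespace Vale.Agent.P098.Cert.Data

open Check

set_option maxRecDepth 20000 in
theorem nodePos_part2 :
    checkTree 64 (2 ^ 189) 10 leafC4 [] [6, 3, 8] nodePosPn
      nodePosQn 99320373032527872000 nodePosT2 [(32, 64), (0, 64), (0, 32)] = true :=
  checkTree_of_treeR4 (by decide +kernel)

end Vale.Agent.P098.Cert.Data
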