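import Vale.Agent.P098.Cert.Data.NodeNegPacked
import Vale.Agent.P098.Check.Fast

/-!
P098, certificate check (NodeNeg), part 0: 26 boxes.
-/

namespace Vale.Agent.P098.Cert.Data

open Check

set_option maxRecDepth 20000 in
theorem nodeNeg_part0 :
    checkTree 32 (2 ^ 176) 10 leafC4 [] [6, 3, 8] nodeNegPn
      nodeNegQn 2681650071878252544000 nodeNegT0 [(0, 16), (0, 32), (0, 8)] = true :=
  checkTree_of_treeR4 (by decide +kernel)

end Vale.Agent.P098.Cert.Data
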